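import Vale.Agent.P092GP.Bru
import Mathlib.RingTheory.RootsOfUnity.Basic
import Mathlib.GroupTheory.Commutator.Basic

/-!
P092, group package: subgroups over `Up`, perfectness and the simplicity theorem.
-/

set_option autoImplicit false
set_option linter.all false

namespace Vale.Agent.P092TS

open Matrix Vale.Agent.P183CH Vale.Agent.P092GP Vale.Agent.P092GP.LD

/-- A weight all of whose conjugates pair non-negatively with `h ≠ 0` vanishes. -/
theorem eq_zero_of_pr {R : RS} (hR : R.Ok) {h : Fin R.r → ℝ} (h0 : h ≠ 0) {μ : R.Q}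
    (a : ∀ w ∈ R.W, 0 ≤ pr (w μ) h) : μ = 0 := by
  have := hR.finite_W
  have := Fintype.ofFinite R.W
  have h1 : ∑ w : R.W, w.1 μ = 0 := by
    refine eq_zero_of_vecMul_eq_zero hR.det (funext fun i => ?_)
    have e := hR.sE_eq i (∑ w : R.W, w.1 μ)
    rw [map_sum, ← Equiv.sum_comp (Equiv.mulLeft (⟨_, R.sE_mem_W i⟩ : R.W)) fun w => w.1 μ] at e
    have := congrFun (sub_eq_self.1 e.symm) i
    rw [Pi.smul_apply, R.α_self, smul_eq_mul, mul_one,
      Equiv.sum_comp (Equiv.mulLeft (⟨_, R.sE_mem_W i⟩ : R.W)) fun w => w.1 μ] at this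
    exact this
  have h2 : ∀ w ∈ R.W, pr (w μ) h = 0 := fun w hw =>
    (Finset.sum_eq_zero_iff_of_nonneg fun (w : R.W) _ => a w.1 w.2).1
      (by rw [← pr_sum, h1, pr_zero]) ⟨w, hw⟩ (Finset.mem_univ _)
  have h3 : ∀ ν : R.Q, (∀ w ∈ R.W, pr (w ν) h = 0) → ∀ i, R.pr ν i ≠ 0 →
      ∀ w ∈ R.W, pr (w (R.α i)) h = 0 := fun ν b i c w hw => by
    have := b _ (mul_mem hw (R.sE_mem_W i))
    rw [R.mul_app, hR.sE_eq, map_sub, pr_sub, b w hw, map_zsmul, pr_zsmul, zero_sub, neg_eq_zero,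
      mul_eq_zero] at this
    exact this.resolve_left (Int.cast_ne_zero.2 c)
  by_contra e
  obtain ⟨i, hi⟩ := Function.ne_iff.1 (mt (eq_zero_of_vecMul_eq_zero hR.det) e)
  refine h0 (funext fun j => (pr_α j h).symm.trans (hR.conn (fun i => ∀ w ∈ R.W,
    pr (w (R.α i)) h = 0) i j (h3 μ h2 i hi) (fun i j b c => h3 _ b j ?_) 1 (one_mem _)))
  rw [R.pr_α]
  exact mt hR.A_zero_comm.1 c

variable {k G : Type} [Field k] [Group G] {L : LD k G} (H : L.Ok) {g u n z : G} {K N : Subgroup G}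
  {w : L.R.Aut} {h : Fin L.R.r → ℝ}
include H

/-- The representatives in a subgroup containing `Up`. -/
theorem rep_mem_WJ (hK : L.Up ≤ K) (b : w ∈ L.R.W) (a : L.Rep n w) (c : n ∈ K) :
    w ∈ L.R.WJ {j | L.X (-L.R.α j) ≤ K} := by
  induction e : L.R.len w generalizing w n with
  | zero => rw [H.root.len_eq_zero b e]; exact one_mem _
  | succ d ih =>
    obtain ⟨j, -, hj⟩ := H.root.exists_neg b fun f => by
      rw [f, H.root.len_one] at e; exact d.succ_ne_zero e.symm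
    have h1 : L.X (-L.R.α j) ≤ K := fun v hv => by
      have := hK (X_le_Up (by
        rw [map_neg, neg_pos]
        exact root_neg H.root (H.root.map_mem b (H.root.simple j)) hj) (a.conj_X hv))
      simpa [mul_assoc] using mul_mem (mul_mem (inv_mem c) this) c
    have h2 : L.nn j ∈ K := GJ_le (J := {j}) (fun _ f => f ▸ (X_le_Up (H.α_pos j)).trans hK)
      (fun _ f => f ▸ h1) (H.nn_mem rfl)
    have h3 := ih (mul_mem b (L.R.sE_mem_W j)) (a.mul (H.rep_nn j)) (mul_mem c h2)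
      (Nat.succ_injective ((H.root.len_mul_neg b hj).trans e))
    rw [← H.root.mul_sE_sE w j]
    exact mul_mem h3 (L.R.sE_mem h1)

theorem le_P (hK : L.Up ≤ K) (h0 : 0 ≤ h) (e : ∀ j, L.X (-L.R.α j) ≤ K → h j = 0) :
    K ≤ L.P h := fun g hg => by
  obtain ⟨u, a, n, w, b, c, u', d, rfl⟩ := H.bruhat0 g
  have h1 : n ∈ K := by
    simpa [mul_assoc] using mul_mem (mul_mem (inv_mem (hK a)) hg) (inv_mem (hK d))
  have h2 := B_le_P (L := L) h0
  exact mul_mem (mul_mem (h2 (Up_le_B a)) (Z_le_P h (LJ_le_Z h (LJ_mono e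
    (H.rep_LJ c (rep_mem_WJ H hK b c h1)))))) (h2 (Up_le_B d))

/-- The subgroups containing `B` are the standard parabolic subgroups. -/
theorem bn (hK : L.B ≤ K) : ∃ h : Fin L.R.r → ℝ, (∀ j, h j = 0 ∨ h j = 1) ∧ K = L.P h := by
  classical
  have h1 := Up_le_B.trans hK
  have h0 : (0 : Fin L.R.r → ℝ) ≤ fun j => if L.X (-L.R.α j) ≤ K then 0 else 1 := fun j => by
    simp only [Pi.zero_apply]; split_ifs <;> norm_num
  refine ⟨_, fun j => by split_ifs <;> simp, le_antisymm (le_P H h1 h0 fun j e => if_pos e)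
    fun g hg => ?_⟩
  obtain ⟨u, a, z, b, rfl⟩ := H.P_decomp hg
  rw [H.Z_eq_LJ h0, H.LJ_eq] at b
  exact mul_mem (h1 (H.U_le_Up h0 a)) (sup_le (Z0_le_B.trans hK) (GJ_le
    (fun j _ => (X_le_Up (H.α_pos j)).trans h1) fun j e => by_contra fun f =>
      one_ne_zero ((if_neg f).symm.trans e)) b)

/-- A subgroup over `Up` contains `Gp` or lies in a proper parabolic subgroup. -/
theorem Gp_le_or (hK : L.Up ≤ K) : L.Gp ≤ K ∨ ∃ j, K ≤ L.P (Pi.single j 1) := by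
  by_cases e : ∀ j, L.X (-L.R.α j) ≤ K
  · exact Or.inl (H.GJ_univ ▸ GJ_le (fun j _ => (X_le_Up (H.α_pos j)).trans hK) fun j _ => e j)
  · obtain ⟨j, hj⟩ := not_forall.1 e
    exact Or.inr ⟨j, le_P H hK (Pi.single_nonneg.2 zero_le_one) fun i f =>
      Pi.single_eq_of_ne (fun c : i = j => hj (c ▸ f)) _⟩

/-- The core of a proper parabolic subgroup. -/
theorem mem_Z0_of_conj (h0 : h ≠ 0) (a : ∀ n ∈ L.Gp, n * g * n⁻¹ ∈ L.P h) : g ∈ L.Z0 :=
  mem_Z0.2 fun p q e => by_contra fun f => e (sub_eq_zero.1 (eq_zero_of_pr H.root h0 fun w hw => by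
    obtain ⟨n, b, c⟩ := H.exists_rep' hw
    have := c.conj_P' (a n b)
    rw [show n⁻¹ * (n * g * n⁻¹) * n = g by group] at this
    rw [← pr_tw, pr_sub, sub_nonneg]
    exact not_lt.1 fun l => f (mem_P.1 this p q l)))

theorem Um_le_of_conj (a : L.Up ≤ K) (b : ∀ n ∈ L.Gp, ∀ x ∈ K, n * x * n⁻¹ ∈ K) : L.Gp ≤ K := by
  obtain ⟨w, c, n, d, e⟩ := H.exists_n0
  rw [H.GJ_univ] at d
  refine sup_le a fun v hv => ?_
  simpa [mul_assoc] using b _ (inv_mem d) _ (a (H.lg_Um e c hv))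

/-- An element of `Z0` whose conjugates stay in `Z0` centralises `Gp`. -/
theorem comm_of_Z0 (a : ∀ n ∈ L.Gp, n * z * n⁻¹ ∈ L.Z0) : ∀ u ∈ L.Gp, z * u = u * z := by
  have h0 : z ∈ L.Z0 := by simpa using a 1 (one_mem _)
  have h1 : ∀ u : G, u * z * u⁻¹ * z⁻¹ = 1 → u ∈ Subgroup.centralizer {z} := fun u e =>
    Subgroup.mem_centralizer_singleton_iff.2 (by
      rw [← mul_inv_eq_one, ← e]; group)
  refine fun u hu => (Subgroup.mem_centralizer_singleton_iff.1 ((sup_le (fun u hu => h1 u ?_)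
    (fun u hu => h1 u ?_) : L.Gp ≤ _) hu)).symm
  · exact H.eq_one_of_Up (by simpa [mul_assoc] using mul_mem hu (conj_Up (Z0_le_B h0) (inv_mem hu)))
      (Z0_le_Bm (mul_mem (a u (Up_le_Gp hu)) (inv_mem h0)))
  · exact H.eq_one_of_Um (by simpa [mul_assoc] using mul_mem hu (conj_Um (Z0_le_Bm h0) (inv_mem hu)))
      (Z0_le_B (mul_mem (a u (Um_le_Gp hu)) (inv_mem h0)))

/-- The coroot lattice of the torus lies in `Gp`. -/
theorem τ_mulVec (c : L.R.Q) (t : kˣ) : L.τ (L.R.A *ᵥ c) t ∈ L.Gp := by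
  have h1 : ∀ i, L.τ (fun j => L.R.A j i) t ∈ L.Gp := fun i => by
    have a := mul_mem (H.normal_Gp.conj_mem _ (H.GJ_univ ▸ H.nn_mem (Set.mem_univ i))
      (L.τ (L.R.α i) t)) (inv_mem (H.GJ_univ ▸ H.nn_mem (Set.mem_univ i) : L.nn i ∈ L.Gp))
    have b := H.normal_Gp.conj_mem _ a (L.nn i)⁻¹
    rw [show (L.nn i)⁻¹ * (L.τ (L.R.α i) t * L.nn i * (L.τ (L.R.α i) t)⁻¹ * (L.nn i)⁻¹) *
      (L.nn i)⁻¹⁻¹ = (L.nn i)⁻¹ * L.τ (L.R.α i) t * L.nn i * (L.τ (L.R.α i) t)⁻¹ by group,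
      H.rep_τ (H.rep_nn i), ← H.τ_neg, ← H.τ_add] at b
    rw [← inv_mem_iff, ← H.τ_neg]
    refine (congrArg (L.τ · t) (funext fun j => ?_) : _ = _) ▸ b
    rw [Pi.add_apply, H.root.sE_eq, L.R.pr_α]
    simp [RS.α, Pi.single_apply, eq_comm]
    ring
  rw [show L.R.A *ᵥ c = ∑ i, c i • fun j => L.R.A j i from funext fun j => by
    simp [mulVec, dotProduct, mul_comm]]
  refine Finset.sum_induction _ (L.τ · t ∈ L.Gp) (fun a b c d => ?_) ?_ fun i _ => ?_
  · rw [H.τ_add]; exact mul_mem c d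
  · rw [H.τ_zero]; exact one_mem _
  · rw [H.τ_zsmul]; exact zpow_mem (h1 i) _

theorem τ_det (y : L.R.Q) (t : kˣ) : L.τ (L.R.A.det • y) t ∈ L.Gp := by
  have := τ_mulVec H (L.R.A.adjugate *ᵥ y) t
  rwa [mulVec_mulVec, mul_adjugate, smul_mulVec, one_mulVec] at this

/-- The filtration by the height. -/
def FH (r c : ℕ) : AddSubsemigroup (Fin r → ℤ) := dPos r ⊓ dHt r c

omit H in
theorem comm_FH {c : ℕ} {v : G} (a : v ∈ L.Up) (b : u ∈ UD L.wt L.ρ (FH _ c)) :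
    v * u * v⁻¹ * u⁻¹ ∈ UD L.wt L.ρ (FH _ (c + 1)) := by
  have e : ∀ (c c' : ℕ), c' ≤ c + 1 → ∀ x ∈ dPos L.R.r, ∀ y ∈ FH L.R.r c, x + y ∈ FH L.R.r c' :=
    fun c c' l x a y b => ⟨add_mem a b.1, by
      have h1 := ht_pos a
      have h2 : (c : ℤ) ≤ ∑ i, y i := b.2
      show (c' : ℤ) ≤ ∑ i, (x + y) i
      simp only [Pi.add_apply, Finset.sum_add_distrib]
      omega⟩
  exact comm_UD a b (e _ _ le_rfl) (e _ _ (Nat.le_succ _)) fun x a => e _ _ (Nat.le_succ _) x a.1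

theorem Up_le_of_comm {y : L.R.Q} {t : kˣ} (ht : ∀ j, t ^ (L.dg j ⬝ᵥ y) ≠ 1)
    (a : ∀ c, UD L.wt L.ρ (FH _ (c + 1)) ≤ K → ∀ u ∈ UD L.wt L.ρ (FH _ c),
      L.τ y t * u * (L.τ y t)⁻¹ * u⁻¹ ∈ K) : L.Up ≤ K := by
  have hU : ∀ c, UD L.wt L.ρ (FH _ c) ≤ L.Up := fun c => UD_mono inf_le_left
  obtain ⟨T, hT⟩ := (Set.finite_range fun j => ∑ i, L.dg j i).bddAbove
  have key : ∀ d c : ℕ, T < c + d → UD L.wt L.ρ (FH _ c) ≤ K := fun d => by
    induction d with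
    | zero =>
      intro c hc u b
      rw [H.eq_one_of_dg (hU c b) b fun j e => by
        have h1 : ∑ i, L.dg j i ≤ T := hT ⟨j, rfl⟩
        have h2 : (c : ℤ) ≤ ∑ i, L.dg j i := e.2
        omega]
      exact one_mem _
    | succ d ih =>
      intro c hc u b
      have h1 := ih (c + 1) (by push_cast at hc ⊢; omega)
      let s := fun j => (((t ^ (L.dg j ⬝ᵥ y) : kˣ) : k) - 1)⁻¹ * L.cf u j
      have h2 : L.x s ∈ UD L.wt L.ρ (FH _ c) := H.x_mem_UD fun j e =>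
        (H.mem_UD_iff (hU c b)).1 b j (right_ne_zero_of_mul e)
      have h3 := mul_mem (Z0_conj_UD (H.τ_mem_Z0 y t) h2) (inv_mem h2)
      have h4 := mul_mem (inv_mem h3) b
      have h5 : (L.τ y t * L.x s * (L.τ y t)⁻¹ * (L.x s)⁻¹)⁻¹ * u ∈ UD L.wt L.ρ (FH _ (c + 1)) := by
        refine (H.mem_UD_iff (hU c h4)).2 fun j e => ?_
        have h6 := (H.mem_UD_iff (hU c h4)).1 h4 j e
        refine ⟨h6.1, Int.add_one_le_iff.2 (lt_of_le_of_ne h6.2 fun f => e ?_)⟩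
        have h7 : ∀ {v v' : G}, v ∈ UD L.wt L.ρ (FH _ c) → v' ∈ UD L.wt L.ρ (FH _ c) →
            L.cf (v * v') j = L.cf v j + L.cf v' j := fun a b => H.cf_mul a b fun x a y b e => by
          have h1 := ht_pos a.1
          have h2 : (c : ℤ) ≤ ∑ i, y i := b.2
          rw [← e] at f
          simp only [Pi.add_apply, Finset.sum_add_distrib] at f
          omega
        have h8 := h7 h3 h4
        have h9 := h7 h3 h2
        rw [mul_inv_cancel_left] at h8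
        rw [inv_mul_cancel_right, H.cf_τ, H.cf_x] at h9
        have h10 := mul_inv_cancel_left₀ (sub_ne_zero.2 (mt Units.val_eq_one.1 (ht j))) (L.cf u j)
        change _ * s j = _ at h10
        linear_combination h9 - h8 - h10
      have := mul_mem (a c h1 _ h2) (h1 h5)
      rwa [mul_inv_cancel_left] at this
  exact fun u b => key (T.toNat + 1) 0 (by push_cast; omega) (UD_mono
    (fun x a => ⟨a, (ht_pos a).le⟩ : dPos _ ≤ FH _ 0) b)

variable [Infinite k]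

/-- A regular element of the torus in `Gp`. -/
theorem exists_reg : ∃ y t, L.τ y t ∈ L.Gp ∧ ∀ j, t ^ (L.dg j ⬝ᵥ y) ≠ 1 := by
  have h1 : ∀ j, L.dg j ⬝ᵥ (L.R.A.det • 1) ≠ 0 := fun j => by
    rw [dotProduct_smul, dotProduct_one]
    exact mul_ne_zero H.root.det (ht_pos (H.dg_pos j)).ne'
  have h2 : ∀ j, Set.Finite {t : kˣ | t ^ (L.dg j ⬝ᵥ (L.R.A.det • 1)) = 1} := fun j => by
    have : NeZero (L.dg j ⬝ᵥ (L.R.A.det • 1)).natAbs := ⟨Int.natAbs_ne_zero.2 (h1 j)⟩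
    exact Set.Finite.subset (s := (rootsOfUnity (L.dg j ⬝ᵥ (L.R.A.det • 1)).natAbs k : Set kˣ))
      (inferInstanceAs (Finite (rootsOfUnity _ k))) fun t e => pow_natAbs_eq_one.2 e
  have : Infinite kˣ := by
    have := ((Set.finite_singleton (0 : k)).infinite_compl).to_subtype
    exact .of_injective (fun a : ({0}ᶜ : Set k) => Units.mk0 a.1 a.2)
      fun a b e => Subtype.ext (congrArg Units.val e)
  obtain ⟨t, ht⟩ := (Set.finite_iUnion h2).exists_notMem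
  exact ⟨_, t, τ_det H 1 t, fun j e => ht (Set.mem_iUnion.2 ⟨j, e⟩)⟩

/-- `Gp` is perfect. -/
theorem perfect : ⁅L.Gp, L.Gp⁆ = L.Gp := by
  obtain ⟨y, t, a, b⟩ := exists_reg H
  have := H.normal_Gp
  exact le_antisymm (Subgroup.commutator_le_left _ _) (Um_le_of_conj H (Up_le_of_comm H b
    fun c _ u d => Subgroup.commutator_mem_commutator a (Up_le_Gp (UD_mono inf_le_left d)))
    fun n _ x c => Subgroup.Normal.conj_mem inferInstance x c n)

/-- **The simplicity theorem.** -/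
theorem tits (hN : ∀ g ∈ L.Gp, ∀ x ∈ N, g * x * g⁻¹ ∈ N) :
    L.Gp ≤ N ∨ ∀ x ∈ N, ∀ u ∈ L.Gp, x * u = u * x := by
  rcases Gp_le_or H (le_sup_right : L.Up ≤ N ⊔ L.Up) with e | ⟨j, e⟩
  · obtain ⟨y, t, a, b⟩ := exists_reg H
    have h1 : L.τ y t ∈ ((N ⊔ L.Up : Subgroup G) : Set G) := e a
    rw [Subgroup.coe_mul_of_right_le_normalizer_left _ _ fun u c => Subgroup.mem_normalizer_iff.2
      fun x => ⟨hN u (Up_le_Gp c) x, fun d => by
        simpa [mul_assoc] using hN _ (inv_mem (Up_le_Gp c)) _ d⟩] at h1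
    obtain ⟨n, c, v, d, f⟩ := h1
    refine Or.inl (Um_le_of_conj H (Up_le_of_comm H b fun c' l u m => ?_) hN)
    have := mul_mem (mul_mem c (l (comm_FH d m))) (hN u (Up_le_Gp (UD_mono inf_le_left m)) _ (inv_mem c))
    rw [← f]
    simpa [mul_assoc] using this
  · have h1 : ∀ x ∈ N, x ∈ L.Z0 := fun x a => mem_Z0_of_conj H (h := Pi.single j 1)
      (fun f => by simpa using congrFun f j) fun n b => e (Subgroup.mem_sup_left (hN n b x a))
    exact Or.inr fun x a => comm_of_Z0 H fun n b => h1 _ (hN n b x a)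

end Vale.Agent.P092TS
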