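import Vale.Agent.P092TS.Fac
import Vale.Agent.P092.H144.Nc.Main
import Vale.Agent.P092.PA.FacInst

/-!
P092, group package: the factor facts from the group form of Howe–Moore, and `ND`.
-/

set_option autoImplicit false
set_option linter.all false

namespace Vale.Agent.P092TS

open Topology Vale.Agent.P092GP Vale.Agent.P092

variable {k G : Type} [NontriviallyNormedField k] [Group G] [TopologicalSpace G]
  [IsTopologicalGroup G] {L : LD k G}

theorem facS_ls (H : L.LS) (hc : IsClosedEmbedding L.ρ) (ht : L.Gp = ⊤) (hm : H15.HMG G) :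
    PA.FacS (H259.PQ G) :=
  have := H.lp.prop
  facS H.lp.ok hc ht (finite_center H) (PA.hm_of_howeMoore hm.howeMoore)

theorem nd_of_dat {r : ℕ} (h : QC.QF G r) (d : H793.Nc.Dat G) : H213.Nd.ND G := by
  obtain ⟨k, _, _, D, _, _, _, ι, _, _, Φ, w, t, a, hΦ, ht, ha, hNZ⟩ := d
  exact H144.Nc.nd_of_lin h Φ hΦ w t ht a ha hNZ

theorem nd [ProperSpace k] (H : L.Ok) (hc : IsClosedEmbedding L.ρ) (ht : L.Gp = ⊤) {r : ℕ}
    (h : QC.QF G r) : H213.Nd.ND G :=
  nd_of_dat h (dat H hc ht)

end Vale.Agent.P092TS
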