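import Vale.Agent.P092TS.Tits
import Vale.Agent.P092GP.DefsT
import Vale.Agent.P092.PA.Fac
import Vale.Agent.P092.H839.Rec
import Vale.Agent.P092.H793.Nc.Dat
import Vale.Agent.P092.H35.Mx.MinC

/-!
P092, group package: density, open centralisers, recurrence, the facts about the factor.
-/

set_option autoImplicit false
set_option linter.all false

namespace Vale.Agent.P092TS

open Matrix Filter Topology Vale.Agent.P183CH Vale.Agent.P092GP Vale.Agent.P092GP.LD
open Vale.Agent.P092 Vale.Agent.P092.H793.Nc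

theorem minC {k G : Type} [Field k] [Group G] {L : LD k G} (H : L.Ok) : H35.Mx.MinC G :=
  H35.Mx.minC_of_linear (F := k) L.ρ H.inj

variable {k G : Type} [NontriviallyNormedField k]

theorem eq_zero_of_nhds {σ : Type} [Fintype σ] {P : MvPolynomial σ k} {a : σ → k}
    (h : ∀ᶠ s in 𝓝 a, MvPolynomial.eval s P = 0) : P = 0 := by
  obtain ⟨ε, hε, b⟩ := Metric.eventually_nhds_iff.1 h
  refine MvPolynomial.funext_set (fun l => Metric.ball (a l) ε)
    (fun l => infinite_of_mem_nhds _ (Metric.ball_mem_nhds _ hε)) fun s hs => ?_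
  rw [map_zero]
  exact b ((dist_pi_lt_iff hε).2 fun l => hs l trivial)

theorem pol_mat {ι : Type} [Fintype ι] (M : Matrix ι ι (Polynomial k)) :
    Pol fun t : k => M.map (Polynomial.eval t) := by
  obtain ⟨N, hN⟩ := (Set.finite_range fun p : ι × ι => (M p.1 p.2).natDegree).bddAbove
  refine ⟨N + 1, fun i => of fun a b => (M a b).coeff i, fun t => Matrix.ext fun a b => ?_⟩
  refine (Polynomial.eval_eq_sum_range' (Nat.lt_succ_of_le (hN ⟨(a, b), rfl⟩)) t).trans ?_
  rw [Matrix.sum_apply]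
  exact Finset.sum_congr rfl fun i _ => mul_comm _ _

variable [Group G] [TopologicalSpace G] {L : LD k G} (H : L.Ok) {g z : G}
include H

theorem cont_x (he : IsEmbedding L.ρ) : Continuous L.x :=
  he.isInducing.continuous_iff.2 (continuous_matrix fun a b => by
    simp only [Function.comp, H.x_apply]
    exact MvPolynomial.continuous_eval _)

theorem nc (he : Continuous L.ρ) : ¬ CompactSpace G := fun _ => by
  obtain ⟨j, -⟩ := H.dg_simple ⟨0, H.root.pos⟩
  obtain ⟨B, hB⟩ := (isCompact_range (show Continuous fun g => ‖L.co j (L.ρ g)‖ by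
    simp only [LD.co]; fun_prop)).bddAbove
  obtain ⟨t, ht⟩ := NormedField.exists_lt_norm k B
  have := hB ⟨L.x fun _ => t, rfl⟩
  simp only [H.co_x] at this
  exact absurd ht (not_lt.2 this)

/-- Neighbourhoods of `1` in `Up` are Zariski dense. -/
theorem dens (he : IsEmbedding L.ρ) (P : MvPolynomial (Fin L.n × Fin L.n) k)
    (h : ∀ᶠ u in 𝓝 (1 : G), u ∈ L.Up → MvPolynomial.eval (fun p => L.ρ u p.1 p.2) P = 0) :
    ∀ u ∈ L.Up, MvPolynomial.eval (fun p => L.ρ u p.1 p.2) P = 0 := fun u hu => by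
  have e : ∀ s, MvPolynomial.eval (fun p => L.ρ (L.x s) p.1 p.2) P =
      MvPolynomial.eval s (MvPolynomial.bind₁ (fun p => L.e p.1 p.2) P) := fun s => by
    simp only [H.x_apply]
    exact (MvPolynomial.eval₂Hom_bind₁ _ _ _ _).symm
  obtain ⟨s, rfl⟩ := H.x_onto u hu
  rw [e, eq_zero_of_nhds (a := 0) (P := MvPolynomial.bind₁ _ P), map_zero]
  rw [← H.x_zero] at h
  exact ((cont_x H he).continuousAt.eventually h).mono fun s a => (e s).symm.trans (a (H.x_mem s))

theorem dens_lin (he : IsEmbedding L.ρ) (φ : Matrix (Fin L.n) (Fin L.n) k →ₗ[k] k)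
    (h : ∀ᶠ u in 𝓝 (1 : G), u ∈ L.Up → φ (L.ρ u) = 0) : ∀ u ∈ L.Up, φ (L.ρ u) = 0 := by
  have e : ∀ M : Matrix (Fin L.n) (Fin L.n) k, φ M = MvPolynomial.eval (fun p => M p.1 p.2)
      (∑ a, ∑ b, MvPolynomial.X (a, b) * MvPolynomial.C (φ (single a b 1))) := fun M => by
    conv_lhs => rw [matrix_eq_sum_single M]
    simp only [map_sum, map_mul, MvPolynomial.eval_X, MvPolynomial.eval_C]
    refine Finset.sum_congr rfl fun i _ => Finset.sum_congr rfl fun j _ => ?_
    rw [← smul_eq_mul, ← φ.map_smul, smul_single, smul_eq_mul, mul_one]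
  simp only [e (L.ρ _)] at h ⊢
  exact dens H he _ h

variable [IsTopologicalGroup G]

/-- An element with an open centraliser centralises `Gp`. -/
theorem cent (he : IsEmbedding L.ρ) (h : ∀ᶠ u in 𝓝 (1 : G), u ∈ L.Gp → g * u = u * g) :
    ∀ u ∈ L.Gp, g * u = u * g := by
  have h1 : ∀ n ∈ L.Gp, ∀ u ∈ L.Up, n * u * n⁻¹ ∈ Subgroup.centralizer {g} := fun n hn u hu => by
    have h2 : ∀ u, n * u * n⁻¹ * g = g * (n * u * n⁻¹) ↔
        L.ρ n * L.ρ u * L.ρ (n⁻¹ * g) - L.ρ (g * n) * L.ρ u * L.ρ n⁻¹ = 0 := fun u => by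
      simp only [sub_eq_zero, ← map_mul, H.inj.eq_iff, mul_assoc]
    refine Subgroup.mem_centralizer_singleton_iff.2 ((h2 u).2 (Matrix.ext fun a b =>
      dens_lin H he (entryLinearMap k k a b ∘ₗ (LinearMap.mulLeftRight k (L.ρ n, L.ρ (n⁻¹ * g)) -
        LinearMap.mulLeftRight k (L.ρ (g * n), L.ρ n⁻¹))) ?_ u hu))
    have h3 : Tendsto (fun u => n * u * n⁻¹) (𝓝 1) (𝓝 1) :=
      Continuous.tendsto' (by fun_prop) _ _ (by simp)
    exact (h3.eventually h).mono fun u c d => congrFun (congrFun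
      ((h2 u).1 (c (mul_mem (mul_mem hn (Up_le_Gp d)) (inv_mem hn))).symm) a) b
  obtain ⟨w, c, n, d, e⟩ := H.exists_n0
  rw [H.GJ_univ] at d
  refine fun u hu => (Subgroup.mem_centralizer_singleton_iff.1 ((sup_le
    (fun u hu => ?_) (fun u hu => ?_) : L.Gp ≤ _) hu)).symm
  · simpa using h1 1 (one_mem _) u hu
  · simpa [mul_assoc] using h1 _ (inv_mem d) _ (H.lg_Um e c hu)

/-- `Gp` is generated by polynomial curves. -/
theorem Gp_le_W (he : IsEmbedding L.ρ) : L.Gp ≤ W (Set.univ : Set k) L.ρ := by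
  have h1 : ∀ n : G, ∀ u ∈ L.Up, n * u * n⁻¹ ∈ W (Set.univ : Set k) L.ρ := fun n u hu => by
    obtain ⟨s, rfl⟩ := H.x_onto u hu
    let M : Matrix _ _ (Polynomial k) :=
      L.e.map (MvPolynomial.aeval fun j => Polynomial.X * Polynomial.C (s j))
    have e : ∀ t, M.map (Polynomial.eval t) = L.ρ (L.x (t • s)) := fun t => Matrix.ext fun a b => by
      rw [H.x_apply]
      refine (MvPolynomial.map_aeval _ (Polynomial.evalRingHom t) _).trans ?_
      rw [show (Polynomial.evalRingHom t).comp (algebraMap k _) = RingHom.id k from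
        RingHom.ext fun c => Polynomial.eval_C]
      simp only [Polynomial.coe_evalRingHom, Polynomial.eval_mul, Polynomial.eval_X, Polynomial.eval_C]
      rfl
    refine mem_W_of_fam he (Set.mem_univ _) (((Pol.const (L.ρ n)).mul (pol_mat M)).mul (Pol.const (L.ρ n⁻¹)))
      (((Pol.const (L.ρ n)).mul (pol_mat M.adjugate)).mul (Pol.const (L.ρ n⁻¹))) ?_
      (fun t _ => ⟨n * L.x (t • s) * n⁻¹, ?_, ?_⟩) ?_
    · simp only [e, zero_smul, H.x_zero, map_one, mul_one, rho_mul_inv]
    · simp only [e, map_mul]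
    · have := (Polynomial.evalRingHom t).map_adjugate M
      rw [RingHom.mapMatrix_apply, RingHom.mapMatrix_apply, Polynomial.coe_evalRingHom, e] at this
      rw [this, ← mul_one (adjugate _), ← rho_mul_inv (ρ := L.ρ) (L.x (t • s)), ← mul_assoc (adjugate _),
        adjugate_mul, H.det, one_smul, one_mul, ← map_mul, ← map_mul]
      congr 1
      group
    · simp only [e, map_mul, one_smul]
  obtain ⟨w, c, n, -, e⟩ := H.exists_n0
  exact sup_le (fun u hu => by simpa using h1 1 u hu)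
    fun u hu => by simpa [mul_assoc] using h1 n⁻¹ _ (H.lg_Um e c hu)

/-- Recurrence. -/
theorem recu (he : Continuous L.ρ) (hf : Finite (Subgroup.center G))
    (hc : ∀ g : G, (∀ u ∈ L.Gp, g * u = u * g) → g ∈ Subgroup.center G) :
    PA.Rec (G ⧸ Subgroup.center G) := by
  refine H839.rec_of_fun fun g => QuotientGroup.induction_on g fun g hg => ?_
  obtain ⟨n, p, q, h1, h2⟩ : ∃ n p q, L.wt p ≠ L.wt q ∧ L.ρ (n * g * n⁻¹) p q ≠ 0 := by
    by_contra e
    exact hg ((QuotientGroup.eq_one_iff g).2 (hc g (comm_of_Z0 H fun n _ => mem_Z0.2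
      fun p q a => by_contra fun b => e ⟨n, p, q, a, b⟩)))
  have := Fintype.ofFinite (Subgroup.center G)
  obtain ⟨t, ht⟩ := NormedField.exists_one_lt_norm k
  let a := L.τ (L.wt p - L.wt q) (Units.mk0 t (norm_pos_iff.1 (one_pos.trans ht)))
  let f : G → ℝ := fun x => ∑ c : Subgroup.center G, ‖L.ρ (n * (x * c) * n⁻¹) p q‖
  refine ⟨(n⁻¹ * a * n : G), fun x => Quotient.liftOn' x f fun x y e => ?_,
    ‖t‖ ^ ((L.wt p - L.wt q) ⬝ᵥ (L.wt p - L.wt q)), ?_,
    one_lt_zpow₀ ht (lt_of_le_of_ne (Finset.sum_nonneg fun _ _ => mul_self_nonneg _)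
      (Ne.symm (mt dotProduct_self_eq_zero.1 (sub_ne_zero.2 h1)))),
    ?_, ?_⟩
  · refine Fintype.sum_equiv (Equiv.mulLeft ⟨_, inv_mem (QuotientGroup.leftRel_apply.1 e)⟩) _ _
      fun c => ?_
    simp [mul_assoc]
  · exact (show Continuous f by fun_prop).quotient_liftOn' _
  · rintro ⟨x⟩
    show f (n⁻¹ * a * n * x * (n⁻¹ * a * n)⁻¹) = _ * f x
    rw [Finset.mul_sum]
    refine Finset.sum_congr rfl fun c _ => ?_
    rw [show n * (n⁻¹ * a * n * x * (n⁻¹ * a * n)⁻¹ * c) * n⁻¹ = a * (n * (x * c) * n⁻¹) * a⁻¹ by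
      rw [mul_assoc _ _ c.1, Subgroup.mem_center_iff.1 c.2]; group, H.τ_conj, norm_mul,
      Units.val_zpow_eq_zpow_val, norm_zpow]
    rfl
  · show 0 < f g
    exact Finset.sum_pos' (fun _ _ => norm_nonneg _) ⟨1, Finset.mem_univ _, by simpa using h2⟩

omit [TopologicalSpace G] [IsTopologicalGroup G] in
theorem simple (ht : L.Gp = ⊤) (N : Subgroup G) (hN : N.Normal) : N ≤ Subgroup.center G ∨ N = ⊤ :=
  (tits H fun g _ x a => hN.conj_mem x a g).symm.imp (fun a x b => Subgroup.mem_center_iff.2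
    fun u => (a x b u (ht ▸ Subgroup.mem_top u)).symm) fun a => top_le_iff.1 (ht ▸ a)

omit [TopologicalSpace G] [IsTopologicalGroup G] in
theorem hom (ht : L.Gp = ⊤) (A : Type) [CommGroup A] (f : G →* A) : f = 1 := by
  have := perfect H
  rw [ht] at this
  exact MonoidHom.ext fun g => Abelianization.commutator_subset_ker f
    (show g ∈ ⁅(⊤ : Subgroup G), ⊤⁆ from this.symm ▸ Subgroup.mem_top g)

variable [ProperSpace k] (hc : IsClosedEmbedding L.ρ) (ht : L.Gp = ⊤)
include hc ht

/-- **The facts on the factor.** -/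
theorem facS (hf : Finite (Subgroup.center G)) (hm : PA.HM G) :
    PA.FacS (G ⧸ Subgroup.center G) := by
  have hf' : ((Subgroup.center G : Subgroup G) : Set G).Finite := hf
  have : LocallyCompactSpace (Matrix (Fin L.n) (Fin L.n) k) :=
    inferInstanceAs (LocallyCompactSpace (Fin L.n → Fin L.n → k))
  have : SecondCountableTopology (Matrix (Fin L.n) (Fin L.n) k) :=
    inferInstanceAs (SecondCountableTopology (Fin L.n → Fin L.n → k))
  have := hc.isEmbedding.t2Space
  have := hc.locallyCompactSpace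
  have := hc.isEmbedding.secondCountableTopology
  have := hf'.isClosed
  have h1 : ∀ g : G, (∀ u ∈ L.Gp, g * u = u * g) → g ∈ Subgroup.center G := fun g a =>
    Subgroup.mem_center_iff.2 fun u => (a u (ht ▸ Subgroup.mem_top u)).symm
  exact
  { top := inferInstance
    lc := inferInstance
    sc := inferInstance
    t2 := inferInstance
    nc := PA.nc_quot _ hf'.isCompact (nc H hc.continuous)
    simple := PA.simple_quot (simple H ht)
    cent := PA.cent_quot hf' fun g hg => h1 g (cent H hc.isEmbedding (mem_of_superset hg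
      fun u a _ => (Subgroup.mem_centralizer_singleton_iff.1 a).symm))
    hom := PA.hom_quot (hom H ht) _
    recu := recu H hc.continuous hf h1
    hm := hm.quot _ }

/-- The linear data which give `ND`. -/
theorem dat : Dat G := by
  obtain ⟨t, h1⟩ := NormedField.exists_one_lt_norm k
  obtain ⟨u, a, b⟩ := H.exists_X ⟨0, H.root.pos⟩
  refine dat_of_W (PA.simple_quot (simple H ht)) (D := k) hc (neBot_univ k) trivial
    (fun a => L.wt a ⬝ᵥ 1) h1 (a := L.τ 1 (Units.mk0 t (norm_pos_iff.1 (one_pos.trans h1))))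
    (by simp only [H.tor, Units.val_zpow_eq_zpow_val]; rfl)
    (top_le_iff.1 (ht ▸ Gp_le_W H hc.isEmbedding)) ⟨u, by_contra fun e => b ?_⟩
  refine H.eq_one_of_U (h := fun j => ((1 : L.R.Q) j : ℝ)) (Up_le_U (fun j => by simp)
    (X_le_Up (H.α_pos _) a)) (mem_P.2 fun p q c => by_contra fun d => e ⟨p, q, ?_, d⟩)
  rwa [pr_neg', pr_neg', neg_lt_neg_iff, pr_cast, pr_cast, Int.cast_lt] at c

omit H hc ht [IsTopologicalGroup G] [ProperSpace k] in
theorem finite_center (H : L.LS) : Finite (Subgroup.center G) :=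
  H.cfin.subset fun g a u _ => (Subgroup.mem_center_iff.1 a u).symm

end Vale.Agent.P092TS
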